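import Vale.Agent.P225.Iface
import Vale.Agent.P348.Trotter

/-! The Lie-Trotter control lemma. -/

namespace Vale.Agent.P225

open Filter Topology NormedSpace

namespace Ctrl

section Banach

variable {B : Type} [NormedRing B] [NormedAlgebra ℝ B] [CompleteSpace B]

theorem exp_deriv (Y : B) : HasDerivAt (fun s : ℝ => exp (s • Y)) Y 0 := by
  simpa using hasDerivAt_exp_smul_const (𝕂 := ℝ) Y 0

theorem add_mem_of (h1 : ‖(1 : B)‖ ≤ 1) (M : Submonoid B) (hM : IsClosed (M : Set B)) {Y Z : B}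
    (hY : ∀ t : ℝ, exp (t • Y) ∈ M) (hZ : ∀ t : ℝ, exp (t • Z) ∈ M) : exp (Y + Z) ∈ M := by
  have hd : HasDerivAt (fun s : ℝ => exp (s • Y) * exp (s • Z)) (Y + Z) 0 := by
    simpa using (exp_deriv Y).fun_mul (exp_deriv Z)
  rw [hasDerivAt_iff_tendsto] at hd
  refine hM.mem_of_tendsto (Vale.Agent.P348.Trotter_banach h1 (Y + Z)
    (fun n => exp (((n : ℝ)⁻¹) • Y) * exp (((n : ℝ)⁻¹) • Z)) ?_)
    (Eventually.of_forall fun n => M.pow_mem (M.mul_mem (hY _) (hZ _)) n)
  refine (hd.comp (tendsto_inv_atTop_nhds_zero_nat (𝕜 := ℝ))).congr fun n => ?_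
  simp only [Function.comp_apply, sub_zero, zero_smul, exp_zero, norm_inv,
    Real.norm_natCast, inv_inv, sub_sub, mul_one]

/-- the Lie algebra of a closed submonoid -/
def lie (h1 : ‖(1 : B)‖ ≤ 1) (M : Submonoid B) (hM : IsClosed (M : Set B)) : Submodule ℝ B where
  carrier := {Y | ∀ t : ℝ, exp (t • Y) ∈ M}
  zero_mem' t := by
    rw [smul_zero, exp_zero]
    exact M.one_mem
  add_mem' hY hZ t := by
    rw [smul_add]
    exact add_mem_of h1 M hM (fun s => by rw [smul_smul]; exact hY _)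
      fun s => by rw [smul_smul]; exact hZ _
  smul_mem' a Y hY t := by
    rw [smul_smul]
    exact hY _

theorem lie_closed (h1 : ‖(1 : B)‖ ≤ 1) (M : Submonoid B) (hM : IsClosed (M : Set B)) :
    IsClosed (lie h1 M hM : Set B) := by
  let _ : NormedAlgebra ℚ B := NormedAlgebra.restrictScalars ℚ ℝ B
  have : (lie h1 M hM : Set B) = ⋂ t : ℝ, (fun Y => exp (t • Y)) ⁻¹' (M : Set B) := by
    ext Y
    rw [Set.mem_iInter]
    rfl
  rw [this]
  exact isClosed_iInter fun t => hM.preimage (exp_continuous.comp (continuous_const_smul t))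

theorem lie_bracket (h1 : ‖(1 : B)‖ ≤ 1) (M : Submonoid B) (hM : IsClosed (M : Set B)) {Y Z : B}
    (hY : Y ∈ lie h1 M hM) (hZ : Z ∈ lie h1 M hM) : Y * Z - Z * Y ∈ lie h1 M hM := by
  let _ : NormedAlgebra ℚ B := NormedAlgebra.restrictScalars ℚ ℝ B
  have hi : ∀ W : B, exp W * exp (-W) = 1 := fun W => by
    rw [← exp_add_of_commute (Commute.refl W).neg_right, add_neg_cancel, exp_zero]
  have hc : ∀ s : ℝ, exp (s • Y) * Z * exp (s • -Y) ∈ lie h1 M hM := by
    intro s t
    let u : Bˣ := ⟨exp (s • Y), exp (s • -Y), by rw [smul_neg]; exact hi _, by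
      simpa using hi (s • -Y)⟩
    have := exp_units_conj u (t • Z)
    rw [mul_smul_comm, smul_mul_assoc] at this
    have h2 : (u : B) * exp (t • Z) * ((u⁻¹ : Bˣ) : B) ∈ M :=
      M.mul_mem (M.mul_mem (hY s) (hZ t)) ((lie h1 M hM).neg_mem hY s)
    rw [← this] at h2
    exact h2
  have hd : HasDerivAt (fun s : ℝ => exp (s • Y) * Z * exp (s • -Y)) (Y * Z - Z * Y) 0 := by
    simpa [sub_eq_add_neg] using ((exp_deriv Y).mul_const Z).fun_mul (exp_deriv (-Y))
  refine (lie_closed h1 M hM).mem_of_tendsto hd.tendsto_slope_zero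
    (Eventually.of_forall fun s => ?_)
  exact (lie h1 M hM).smul_mem _ ((lie h1 M hM).sub_mem (hc _) (hc _))

end Banach

theorem prodUp_congr {A : Type} [Monoid A] {F G : ℕ → A} (N : ℕ) (h : ∀ i < N, F i = G i) :
    prodUp F N = prodUp G N := by
  induction N with
  | zero => rfl
  | succ n ih =>
    rw [prodUp, prodUp, h n n.lt_succ_self, ih fun i hi => h i (hi.trans n.lt_succ_self)]

section Fun

variable {A : Type} [NormedRing A] [NormedAlgebra ℝ A] {X : Type} [TopologicalSpace X]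

/-- the function `c ↦ f c • Y` -/
def sm (f : C(X, ℝ)) (Y : A) : C(X, A) := ⟨fun c => f c • Y, by fun_prop⟩

theorem exp_apply [CompleteSpace A] [CompactSpace X] (g : C(X, A)) (c : X) :
    exp g c = exp (g c) := by
  let _ : NormedAlgebra ℚ A := NormedAlgebra.restrictScalars ℚ ℝ A
  exact map_exp ((Pi.evalRingHom (fun _ : X => A) c).comp ContinuousMap.coeFnRingHom)
    (continuous_eval_const c) g

theorem rep {ι : Type} [Nonempty ι] (T : ι → A) {g : C(X, A)}
    (hg : g ∈ Submonoid.closure {g : C(X, A) | ∃ (j : ι) (ψ : C(X, ℝ)), ∀ c,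
      g c = exp (ψ c • T j)}) :
    ∃ (N : ℕ) (js : ℕ → ι) (φ : ℕ → C(X, ℝ)), ∀ c,
      g c = prodUp (fun i => exp (φ i c • T (js i))) N := by
  induction hg using Submonoid.closure_induction_left with
  | one => exact ⟨0, fun _ => Classical.arbitrary ι, 0, fun _ => rfl⟩
  | mul_left x hx y _ ih =>
    obtain ⟨j, ψ, hx⟩ := hx
    obtain ⟨N, js, φ, hy⟩ := ih
    refine ⟨N + 1, Function.update js N j, Function.update φ N ψ, fun c => ?_⟩
    rw [prodUp, Function.update_self, Function.update_self, ContinuousMap.mul_apply, hx, hy]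
    exact congrArg _ (prodUp_congr N fun i hi => by
      rw [Function.update_of_ne hi.ne, Function.update_of_ne hi.ne])

end Fun

end Ctrl

open Ctrl in
theorem ctrlStmt : CtrlStmt := by
  intro A _ _ _ X _ _ ι _ T h1
  have h1' : ‖(1 : C(X, A))‖ ≤ 1 := (ContinuousMap.norm_le _ zero_le_one).mpr fun _ => h1
  let M0 := Submonoid.closure {g : C(X, A) | ∃ (j : ι) (ψ : C(X, ℝ)), ∀ c, g c = exp (ψ c • T j)}
  let L := lie h1' M0.topologicalClosure M0.isClosed_topologicalClosure
  let S : Submodule ℝ A :=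
    { carrier := {Y | ∀ f : C(X, ℝ), sm f Y ∈ L}
      zero_mem' := fun f => by
        rw [show sm f (0 : A) = 0 from ContinuousMap.ext fun c => smul_zero _]
        exact L.zero_mem
      add_mem' := fun {Y Z} hY hZ f => by
        rw [show sm f (Y + Z) = sm f Y + sm f Z from ContinuousMap.ext fun c => smul_add _ _ _]
        exact L.add_mem (hY f) (hZ f)
      smul_mem' := fun a Y hY f => by
        rw [show sm f (a • Y) = a • sm f Y from ContinuousMap.ext fun c => smul_comm _ _ _]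
        exact L.smul_mem a (hY f) }
  refine ⟨S, M0.topologicalClosure.map ContinuousMap.coeFnMonoidHom, fun j f t => ?_,
    fun Y hY Z hZ f => ?_, fun κ F f Y hY => ?_, ?_⟩
  · refine M0.le_topologicalClosure (Submonoid.subset_closure ⟨j, t • f, fun c => ?_⟩)
    rw [exp_apply]
    exact congrArg _ (smul_smul _ _ _)
  · have : sm f (Y * Z - Z * Y) = sm f Y * sm 1 Z - sm 1 Z * sm f Y :=
      ContinuousMap.ext fun c => by simp [sm, smul_sub]
    rw [this]
    exact lie_bracket _ _ _ (hY f) (hZ 1)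
  · have h := L.sum_mem (fun k hk => hY k hk (f k)) 1
    refine ⟨_, h, funext fun c => ?_⟩
    refine (exp_apply _ c).trans ?_
    rw [one_smul, ContinuousMap.sum_apply]
    rfl
  · rintro _ ⟨g, hg, rfl⟩ ε hε
    obtain ⟨g', hg', hd⟩ := Metric.mem_closure_iff.mp hg ε hε
    obtain ⟨N, js, φ, h⟩ := rep T hg'
    refine ⟨N, js, φ, fun c => ?_⟩
    rw [← h c, ← dist_eq_norm]
    exact (ContinuousMap.dist_apply_le_dist c).trans hd.le

end Vale.Agent.P225
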