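import Vale.Agent.P225.Pre
import Vale.Agent.P225.Gen
import Vale.Agent.P225.Num

namespace Vale.Agent.P225

theorem final :
    ∃ (n : ℕ) (g : Met n) (k : ℕ), 2 ≤ n ∧ IsMetric g ∧ Complete g ∧ RicNonneg g ∧ 1 ≤ k ∧
      ∃ (N : ℕ) (u : Fin N → Pt n → ℝ), (n + k - 1).choose k + (n + k - 2).choose (k - 1) < N ∧
        LinearIndependent ℝ u ∧ ∀ i, HarmGrowth g k (u i) :=
  pre (genStmt cxStmt fisStmt) numStmt

end Vale.Agent.P225
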