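import Vale.Agent.P225.Main
import Vale.Agent.P225.All
import Vale.Agent.P225.Basis
import Vale.Agent.P225.Ctrl
import Vale.Agent.P225.Cx
import Vale.Agent.P225.Cyc
import Vale.Agent.P225.Dist
import Vale.Agent.P225.Ev
import Vale.Agent.P225.Fis
import Vale.Agent.P225.Geo
import Vale.Agent.P225.Glob
import Vale.Agent.P225.Lap
import Vale.Agent.P225.Multi
import Vale.Agent.P225.One
import Vale.Agent.P225.Prof
import Vale.Agent.P225.Pulse
import Vale.Agent.P225.Rep
import Vale.Agent.P225.Rho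
import Vale.Agent.P225.Ric
import Vale.Agent.P225.Scal
import Vale.Agent.P225.Steer
import Vale.Agent.P225.Step
import Vale.Agent.P225.Wait

namespace Vale.Agent.P225

theorem pre (hGen : GenStmt) (hNum : NumStmt) :
    ∃ (n : ℕ) (g : Met n) (k : ℕ), 2 ≤ n ∧ IsMetric g ∧ Complete g ∧ RicNonneg g ∧ 1 ≤ k ∧
      ∃ (N : ℕ) (u : Fin N → Pt n → ℝ), (n + k - 1).choose k + (n + k - 2).choose (k - 1) < N ∧
        LinearIndependent ℝ u ∧ ∀ i, HarmGrowth g k (u i) :=
  mainStmt (geoStmt chrStmt (ricStmt chrStmt)) (distStmt locStmt) (lapStmt chrStmt locStmt) rhoStmt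
    (steerStmt ctrlStmt)
    (stepStmt odeStmt (multiStmt (pulseStmt decayStmt posStmt)) (waitStmt decayStmt posStmt))
    potStmt (globStmt odeStmt startStmt profStmt)
    (repStmt evStmt cxStmt hGen (allStmt fisStmt (cycStmt fisStmt) (oneStmt cxStmt))
      (basisStmt fisStmt)) hNum

end Vale.Agent.P225
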